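import Mathlib

/-! P201 / P194, block B in abstract form (generic cells, blocks, colours).  helper585.

Cells `C`, ports `C × Bool`, blocks `V`, `bl : C × Bool → V`, colours `cl : C → K`.
-/

namespace Vale.Agent.P201.G.B

open Finset

section Abs

variable {P V : Type} (β : P → V) (m : P → P)

/-- one step of a reduced walk -/
def St (a b : P) : Prop := β (m a) = β b ∧ b ≠ m a

/-- walks (not necessarily reduced) with exactly `k` edges -/
def Wk : ℕ → V → V → Prop
  | 0, u, v => u = v
  | k + 1, u, v => ∃ q : P, β q = u ∧ Wk k (β (m q)) v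

/-- closed reduced walks (as `a :: l`) have length at least `g` -/
def AG (g : ℕ) : Prop := ∀ a l, (a :: (l ++ [a])).IsChain (St β m) → g ≤ l.length + 1

end Abs

variable {C V K : Type} [Fintype C] [DecidableEq C]

/-- the matching involution on ports -/
def amt (σ : Equiv.Perm C) (q : C × Bool) : C × Bool :=
  if q.2 then (σ q.1, false) else (σ.symm q.1, true)

/-- the edges of `a` and `c` have distance at least `g` -/
def AFar (bl : C × Bool → V) (σ : Equiv.Perm C) (g : ℕ) (a c : C) : Prop :=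
  ∀ u, (u = (a, true) ∨ u = (σ a, false)) → ∀ v, (v = (c, true) ∨ v = (σ c, false)) →
    ∀ k < g, ¬ Wk bl (amt σ) k (bl u) (bl v)

def AOld (σ : Equiv.Perm C) (a c : C) (q : C × Bool) : Prop :=
  q = (a, true) ∨ q = (σ a, false) ∨ q = (c, true) ∨ q = (σ c, false)

/-- B1, abstract (proved in `BB1.lean`): closed reduced walks `x :: l` of length `≤ g` after the
switch avoid the four ports and are old walks. -/
def AB1 : Prop :=
  ∀ (C V : Type) [Fintype C] [DecidableEq C] (bl : C × Bool → V) (σ : Equiv.Perm C) (g : ℕ)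
    (a c : C), AG bl (amt σ) g → AFar bl σ g a c →
    ∀ x l, (x :: (l ++ [x])).IsChain (St bl (amt (σ * Equiv.swap a c))) → l.length + 1 ≤ g →
      (x :: (l ++ [x])).IsChain (St bl (amt σ)) ∧ ∀ q ∈ x :: l, ¬ AOld σ a c q

open Classical in
/-- B2, abstract: few near cells. -/
def AB2 : Prop :=
  ∀ (C V : Type) [Fintype C] [DecidableEq C] (bl : C × Bool → V) (g D : ℕ),
    (∀ b : V, (univ.filter (fun q : C × Bool => bl q = b)).card ≤ D) →
    ∀ (σ : Equiv.Perm C) (a : C),
      (univ.filter (fun c : C => ¬ AFar bl σ g a c)).card ≤ (2 * D + 2) ^ (g + 3)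

open Classical in
/-- B3, abstract: existence of a colour preserving matching of girth `≥ g`. -/
def AB3 : Prop :=
  ∀ (C V K : Type) [Fintype C] [DecidableEq C] (bl : C × Bool → V) (cl : C → K) (g D N : ℕ),
    (∀ b : V, (univ.filter (fun q : C × Bool => bl q = b)).card ≤ D) →
    (∀ a : C, N ≤ (univ.filter (fun c : C => cl c = cl a)).card) →
    (2 * D + 2) ^ (g + 3) < N →
    ∃ σ : Equiv.Perm C, (∀ c, cl (σ c) = cl c) ∧ AG bl (amt σ) g

open Classical in
/-- block B, abstract -/
def AStmtB : Prop :=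
  ∀ (C V K : Type) [Fintype C] [DecidableEq C] (bl : C × Bool → V) (cl : C → K)
    (g D N s : ℕ),
    (∀ b : V, (univ.filter (fun q : C × Bool => bl q = b)).card ≤ D) →
    (∀ a : C, N ≤ (univ.filter (fun c : C => cl c = cl a)).card) →
    (2 * D + 2) ^ (g + 3) + s < N →
    ∀ Q : Finset (C × C) → ℝ, (∀ S, 0 ≤ Q S) → (∑ S, Q S ≤ 1) →
      (∀ S, Q S ≠ 0 → S.card ≤ s) →
      ∃ σ : Equiv.Perm C, (∀ c, cl (σ c) = cl c) ∧ AG bl (amt σ) g ∧
        ∀ S : Finset (C × C), (∀ x ∈ S, σ x.1 = x.2) →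
          Q S * ((N : ℝ) - (2 * D + 2) ^ (g + 3) - s) ^ S.card ≤ 1

end Vale.Agent.P201.G.B
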