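import Vale.Agent.P201.G.BA

/-! P201 / P194, block B2 abstract: few near cells.  helper585. -/

namespace Vale.Agent.P201.G.B

open Finset

open Classical in
theorem card_wk {P V : Type} [Fintype P] (β : P → V) (m : P → P) (D : ℕ)
    (hD : ∀ b : V, (univ.filter (fun q : P => β q = b)).card ≤ D) (k : ℕ) (X : V) :
    (univ.filter (fun v : P => Wk β m k X (β v))).card ≤ D ^ (k + 1) := by
  induction k generalizing X with
  | zero =>
    refine le_trans (card_le_card ?_) ((hD X).trans (by simp))
    intro v hv
    simp only [mem_filter, mem_univ, true_and] at hv ⊢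
    exact hv.symm
  | succ k ih =>
    have hsub : (univ.filter (fun v : P => Wk β m (k + 1) X (β v))) ⊆
        (univ.filter (fun q : P => β q = X)).biUnion
          (fun q => univ.filter (fun v : P => Wk β m k (β (m q)) (β v))) := by
      intro v hv
      simp only [mem_filter, mem_univ, true_and, mem_biUnion] at hv ⊢
      obtain ⟨q, h1, h2⟩ := hv
      exact ⟨q, h1, h2⟩
    calc (univ.filter (fun v : P => Wk β m (k + 1) X (β v))).card
        ≤ _ := card_le_card hsub
      _ ≤ ∑ q ∈ univ.filter (fun q : P => β q = X),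
          (univ.filter (fun v : P => Wk β m k (β (m q)) (β v))).card := card_biUnion_le
      _ ≤ ∑ _q ∈ univ.filter (fun q : P => β q = X), D ^ (k + 1) :=
          sum_le_sum (fun q _ => ih _)
      _ = (univ.filter (fun q : P => β q = X)).card * D ^ (k + 1) := by
          rw [sum_const, smul_eq_mul]
      _ ≤ D * D ^ (k + 1) := Nat.mul_le_mul_right _ (hD X)
      _ = D ^ (k + 1 + 1) := by ring

theorem sum_pow_le (D g : ℕ) : ∑ k ∈ range g, D ^ (k + 1) ≤ (D + 1) ^ (g + 1) := by
  induction g with
  | zero => simp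
  | succ g ih =>
    rw [sum_range_succ]
    have h1 : D ^ (g + 1) ≤ D * (D + 1) ^ (g + 1) := by
      rw [pow_succ, mul_comm]
      refine Nat.mul_le_mul_left _ ?_
      exact (Nat.pow_le_pow_left (by omega) g).trans (Nat.pow_le_pow_right (by omega) (by omega))
    calc ∑ k ∈ range g, D ^ (k + 1) + D ^ (g + 1)
        ≤ (D + 1) ^ (g + 1) + D * (D + 1) ^ (g + 1) := add_le_add ih h1
      _ = (D + 1) ^ (g + 1 + 1) := by ring

open Classical in
theorem aB2 : AB2 := by
  intro C V _ _ bl g D hD σ a
  -- bad ports seen from `X`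
  let Bp : V → Finset (C × Bool) := fun X =>
    (range g).biUnion (fun k => univ.filter (fun v : C × Bool => Wk bl (amt σ) k X (bl v)))
  have hBp : ∀ X, (Bp X).card ≤ (D + 1) ^ (g + 1) := by
    intro X
    refine card_biUnion_le.trans ?_
    refine le_trans (sum_le_sum (fun k _ => card_wk bl (amt σ) D ?_ k X)) (sum_pow_le D g)
    intro b
    convert hD b
  let U : Finset (C × Bool) := Bp (bl (a, true)) ∪ Bp (bl (σ a, false))
  have hU : U.card ≤ 2 * (D + 1) ^ (g + 1) := by
    refine (card_union_le _ _).trans ?_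
    have h1 := hBp (bl (a, true))
    have h2 := hBp (bl (σ a, false))
    omega
  have hsub : (univ.filter (fun c : C => ¬ AFar bl σ g a c)) ⊆
      U.image (fun q : C × Bool => if q.2 then q.1 else σ.symm q.1) := by
    intro c hc
    simp only [mem_filter, mem_univ, true_and] at hc
    unfold AFar at hc
    push Not at hc
    obtain ⟨u, hu, v, hv, k, hk, hW⟩ := hc
    have hvU : v ∈ U := by
      rcases hu with rfl | rfl
      · refine mem_union_left _ (mem_biUnion.2 ⟨k, mem_range.2 hk, ?_⟩)
        simp only [mem_filter, mem_univ, true_and]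
        exact hW
      · refine mem_union_right _ (mem_biUnion.2 ⟨k, mem_range.2 hk, ?_⟩)
        simp only [mem_filter, mem_univ, true_and]
        exact hW
    refine mem_image.2 ⟨v, hvU, ?_⟩
    rcases hv with rfl | rfl <;> simp
  have h3 := (card_le_card hsub).trans (card_image_le.trans hU)
  have h4 : 2 * (D + 1) ^ (g + 1) ≤ (2 * D + 2) ^ (g + 3) := by
    calc 2 * (D + 1) ^ (g + 1) ≤ 2 ^ (g + 1) * (D + 1) ^ (g + 1) := by
          refine Nat.mul_le_mul_right _ ?_
          calc 2 = 2 ^ 1 := by norm_num
            _ ≤ 2 ^ (g + 1) := Nat.pow_le_pow_right (by norm_num) (by omega)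
      _ = (2 * D + 2) ^ (g + 1) := by rw [← mul_pow]; ring_nf
      _ ≤ (2 * D + 2) ^ (g + 3) := Nat.pow_le_pow_right (by omega) (by omega)
  have h5 := h3.trans h4
  convert h5

end Vale.Agent.P201.G.B
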