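import Vale.Agent.P201.G.BA
import Vale.Agent.P201.G.BB1
import Vale.Agent.P201.G.BB4

/-! P201 / P194, block B in abstract form: B2 (few near cells), B3 (existence), and the
assembly `aStmtB : AStmtB`.  helper333. -/

namespace Vale.Agent.P201.G.B

open Finset

section

variable {C V K : Type} [Fintype C] [DecidableEq C]

open Classical in
theorem card_wk (bl : C × Bool → V) (σ : Equiv.Perm C) (D : ℕ)
    (hD : ∀ b : V, (univ.filter (fun q : C × Bool => bl q = b)).card ≤ D) : ∀ (k : ℕ) (X : V),
    (univ.filter (fun r : C × Bool => Wk bl (amt σ) k X (bl r))).card ≤ D ^ (k + 1) := by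
  intro k
  induction k with
  | zero =>
    intro X
    have h : (univ.filter (fun r : C × Bool => Wk bl (amt σ) 0 X (bl r))) ⊆
        univ.filter (fun q : C × Bool => bl q = X) := by
      intro r hr
      simp only [mem_filter, mem_univ, true_and] at hr ⊢
      exact Eq.symm hr
    refine (card_le_card h).trans ?_
    simpa using hD X
  | succ k ih =>
    intro X
    have h : (univ.filter (fun r : C × Bool => Wk bl (amt σ) (k + 1) X (bl r))) ⊆
        (univ.filter (fun q : C × Bool => bl q = X)).biUnion
          (fun q => univ.filter (fun r : C × Bool => Wk bl (amt σ) k (bl (amt σ q)) (bl r))) := by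
      intro r hr
      simp only [mem_filter, mem_univ, true_and] at hr
      obtain ⟨q, h1, h2⟩ := hr
      simp only [mem_biUnion, mem_filter, mem_univ, true_and]
      exact ⟨q, h1, h2⟩
    refine (card_le_card h).trans (card_biUnion_le.trans ?_)
    refine (sum_le_card_nsmul _ _ (D ^ (k + 1)) (fun q _ => ih _)).trans ?_
    rw [smul_eq_mul, pow_succ D (k + 1), mul_comm]
    exact Nat.mul_le_mul_left _ (hD X)

theorem sum_pow_le (D g : ℕ) : ∑ k ∈ range g, D ^ (k + 1) ≤ (D + 1) ^ g := by
  induction g with
  | zero => simp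
  | succ g ih =>
    rw [sum_range_succ]
    have h : D ^ (g + 1) ≤ D * (D + 1) ^ g := by
      rw [pow_succ, mul_comm]
      exact Nat.mul_le_mul_left _ (Nat.pow_le_pow_left (by omega) g)
    calc _ ≤ (D + 1) ^ g + D * (D + 1) ^ g := Nat.add_le_add ih h
      _ = (D + 1) ^ (g + 1) := by ring

open Classical in
theorem card_near (bl : C × Bool → V) (σ : Equiv.Perm C) (D : ℕ)
    (hD : ∀ b : V, (univ.filter (fun q : C × Bool => bl q = b)).card ≤ D) (g : ℕ) (X : V) :
    (univ.filter (fun r : C × Bool => ∃ k < g, Wk bl (amt σ) k X (bl r))).card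
      ≤ (D + 1) ^ g := by
  have h : (univ.filter (fun r : C × Bool => ∃ k < g, Wk bl (amt σ) k X (bl r))) ⊆
      (range g).biUnion
        (fun k => univ.filter (fun r : C × Bool => Wk bl (amt σ) k X (bl r))) := by
    intro r hr
    simp only [mem_filter, mem_univ, true_and] at hr
    obtain ⟨k, h1, h2⟩ := hr
    simp only [mem_biUnion, mem_filter, mem_univ, true_and, mem_range]
    exact ⟨k, h1, h2⟩
  refine (card_le_card h).trans (card_biUnion_le.trans ?_)
  exact (sum_le_sum (fun k _ => card_wk bl σ D hD k X)).trans (sum_pow_le D g)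

/-- the cell of a port -/
def ced (σ : Equiv.Perm C) (q : C × Bool) : C := if q.2 then q.1 else σ.symm q.1

theorem aB2' (bl : C × Bool → V) (g D : ℕ)
    (hD : ∀ [DecidableEq V], ∀ b : V, (univ.filter (fun q : C × Bool => bl q = b)).card ≤ D)
    (σ : Equiv.Perm C) (a : C) [DecidablePred (fun c : C => ¬ AFar bl σ g a c)] :
      (univ.filter (fun c : C => ¬ AFar bl σ g a c)).card ≤ (2 * D + 2) ^ (g + 1) := by
  classical
  have hsub : (univ.filter (fun c : C => ¬ AFar bl σ g a c)) ⊆
      ((univ.filter (fun r : C × Bool => ∃ k < g, Wk bl (amt σ) k (bl (a, true)) (bl r))) ∪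
       (univ.filter (fun r : C × Bool => ∃ k < g,
          Wk bl (amt σ) k (bl (σ a, false)) (bl r)))).image (ced σ) := by
    intro c hc
    simp only [mem_filter, mem_univ, true_and] at hc
    unfold AFar at hc
    push Not at hc
    obtain ⟨u, hu, v, hv, k, hk, h⟩ := hc
    rw [mem_image]
    refine ⟨v, ?_, ?_⟩
    · rw [mem_union, mem_filter, mem_filter]
      rcases hu with rfl | rfl
      · exact Or.inl ⟨mem_univ _, k, hk, h⟩
      · exact Or.inr ⟨mem_univ _, k, hk, h⟩
    · rcases hv with rfl | rfl
      · simp [ced]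
      · simp [ced]
  refine (card_le_card hsub).trans (card_image_le.trans ((card_union_le _ _).trans ?_))
  have h1 := card_near bl σ D hD g (bl (a, true))
  have h2 := card_near bl σ D hD g (bl (σ a, false))
  refine (Nat.add_le_add h1 h2).trans ?_
  have h3 : (D + 1) ^ g ≤ (2 * D + 2) ^ g := Nat.pow_le_pow_left (by omega) g
  calc (D + 1) ^ g + (D + 1) ^ g = (D + 1) ^ g * 2 := by ring
    _ ≤ (2 * D + 2) ^ g * (2 * D + 2) := Nat.mul_le_mul h3 (by omega)
    _ = (2 * D + 2) ^ (g + 1) := by rw [pow_succ]

end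

theorem aB2 : AB2 := by
  classical
  intro C V _ _ bl g D hD σ a
  have hD' : ∀ [DecidableEq V], ∀ b : V,
      (univ.filter (fun q : C × Bool => bl q = b)).card ≤ D := by
    intro _ b
    have h := hD b
    convert h
  have h0 : (2 * D + 2) ^ (g + 1) ≤ (2 * D + 2) ^ (g + 3) :=
    Nat.pow_le_pow_right (by omega) (by omega)
  have h := (aB2' bl g D hD' σ a).trans h0
  convert h

theorem aB3 : AB3 := by
  classical
  intro C V K _ _ bl cl g D N hD hcl hN
  have hD' : ∀ [DecidableEq V], ∀ b : V,
      (univ.filter (fun q : C × Bool => bl q = b)).card ≤ D := by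
    intro _ b
    have h := hD b
    convert h
  suffices H : ∀ g' ≤ g, ∃ σ : Equiv.Perm C, (∀ c, cl (σ c) = cl c) ∧ AG bl (amt σ) g' from
    H g le_rfl
  intro g'
  induction g' with
  | zero => intro _; exact ⟨1, fun _ => rfl, fun _ _ _ => Nat.zero_le _⟩
  | succ k ih =>
    intro hk
    obtain ⟨σ0, hσ0, hσ0'⟩ := ih (by omega)
    let W : Equiv.Perm C → Finset (List.Vector (C × Bool) k) :=
      fun σ => univ.filter (fun v => ∃ x l, v.1 = x :: l ∧
        (x :: (l ++ [x])).IsChain (St bl (amt σ)))
    have hW : ∀ σ v, v ∈ W σ ↔ ∃ x l, v.1 = x :: l ∧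
        (x :: (l ++ [x])).IsChain (St bl (amt σ)) := by
      intro σ v
      simp only [W, mem_filter, mem_univ, true_and]
    obtain ⟨σ, hσ, hmin⟩ := Finset.exists_min_image
      (univ.filter (fun σ : Equiv.Perm C => (∀ c, cl (σ c) = cl c) ∧ AG bl (amt σ) k))
      (fun σ => (W σ).card) ⟨σ0, mem_filter.2 ⟨mem_univ _, hσ0, hσ0'⟩⟩
    rw [mem_filter] at hσ
    obtain ⟨-, hcol, hG⟩ := hσ
    refine ⟨σ, hcol, ?_⟩
    intro x l hl
    have h1 := hG x l hl
    by_contra hlt
    have hlen : (x :: l).length = k := by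
      simp only [List.length_cons]; omega
    -- the cell of the first port
    have hbad := aB2' bl k D hD' σ (ced σ x)
    have hlt2 : (univ.filter (fun c : C => ¬ AFar bl σ k (ced σ x) c)).card <
        (univ.filter (fun c : C => cl c = cl (ced σ x))).card := by
      refine lt_of_le_of_lt hbad (lt_of_le_of_lt ?_ (lt_of_lt_of_le hN (hcl _)))
      exact Nat.pow_le_pow_right (by omega) (by omega)
    obtain ⟨c, hc1, hc2⟩ := Finset.exists_mem_notMem_of_card_lt_card hlt2
    rw [mem_filter] at hc1 hc2
    have hfar : AFar bl σ k (ced σ x) c := by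
      by_contra h; exact hc2 ⟨mem_univ _, h⟩
    have hG' := ag_switch hG hfar
    have hcol' : ∀ d, cl ((σ * Equiv.swap (ced σ x) c) d) = cl d := by
      intro d
      rw [Equiv.Perm.coe_mul, Function.comp_apply, hcol]
      rcases eq_or_ne d (ced σ x) with rfl | h3
      · rw [Equiv.swap_apply_left]; exact hc1.2
      · rcases eq_or_ne d c with rfl | h4
        · rw [Equiv.swap_apply_right]; exact hc1.2.symm
        · rw [Equiv.swap_apply_of_ne_of_ne h3 h4]
    have hle := hmin (σ * Equiv.swap (ced σ x) c) (mem_filter.2 ⟨mem_univ _, hcol', hG'⟩)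
    have hss : W (σ * Equiv.swap (ced σ x) c) ⊂ W σ := by
      rw [Finset.ssubset_iff_of_subset]
      · refine ⟨⟨x :: l, hlen⟩, (hW _ _).2 ⟨x, l, rfl, hl⟩, ?_⟩
        intro hmem
        obtain ⟨x', l', hx', hch⟩ := (hW _ _).1 hmem
        simp only [List.cons.injEq] at hx'
        obtain ⟨rfl, rfl⟩ := hx'
        have := (aB1 C V bl σ k _ c hG hfar x l hch (by simpa using hlen.le)).2 x (by simp)
        apply this
        unfold AOld ced
        obtain ⟨y, b⟩ := x
        cases b
        · right; left; simp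
        · left; simp
      · intro m hm
        obtain ⟨x', l', hx', hch⟩ := (hW _ _).1 hm
        have hl' : l'.length + 1 ≤ k := by
          have h5 := m.2
          rw [hx'] at h5
          simp only [List.length_cons] at h5
          omega
        exact (hW _ _).2 ⟨x', l', hx', (aB1 C V bl σ k _ c hG hfar x' l' hch hl').1⟩
    exact absurd hle (not_le.2 (card_lt_card hss))

end Vale.Agent.P201.G.B
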