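import Vale.Agent.P201.G.BB1
import Vale.Agent.P201.G.BB2

/-! P201 / P194, block B3 abstract: existence of matchings of large girth.  helper585. -/

namespace Vale.Agent.P201.G.B

open Finset

variable {C V K : Type} [Fintype C] [DecidableEq C]

/-- closed reduced walks of length `g` -/
def WS (bl : C × Bool → V) (g : ℕ) (σ : Equiv.Perm C) : Set (List (C × Bool)) :=
  {l | l.length = g ∧ ∃ x t, l = x :: t ∧ (x :: (t ++ [x])).IsChain (St bl (amt σ))}

theorem ws_finite (bl : C × Bool → V) (g : ℕ) (σ : Equiv.Perm C) : (WS bl g σ).Finite :=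
  (List.finite_length_eq (C × Bool) g).subset (fun _ h => h.1)

theorem swap_colour {cl : C → K} {σ : Equiv.Perm C} (h : ∀ c, cl (σ c) = cl c) {a c : C}
    (hac : cl c = cl a) : ∀ y, cl ((σ * Equiv.swap a c) y) = cl y := by
  intro y
  rw [Equiv.Perm.mul_apply, h]
  rcases eq_or_ne y a with rfl | h1
  · rw [Equiv.swap_apply_left, hac]
  · rcases eq_or_ne y c with rfl | h2
    · rw [Equiv.swap_apply_right, hac]
    · rw [Equiv.swap_apply_of_ne_of_ne h1 h2]

open Classical in
theorem exists_far {bl : C × Bool → V} {cl : C → K} {g D N : ℕ}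
    (hD : ∀ b : V, (univ.filter (fun q : C × Bool => bl q = b)).card ≤ D)
    (hN : ∀ a : C, N ≤ (univ.filter (fun c : C => cl c = cl a)).card)
    (hR : (2 * D + 2) ^ (g + 3) < N) (σ : Equiv.Perm C) (a : C) :
    ∃ c, cl c = cl a ∧ AFar bl σ g a c := by
  by_contra hcon
  push Not at hcon
  have h1 := aB2 C V bl g D hD σ a
  have h2 : (univ.filter (fun c : C => cl c = cl a)) ⊆
      (univ.filter (fun c : C => ¬ AFar bl σ g a c)) := by
    intro c hc
    simp only [mem_filter, mem_univ, true_and] at hc ⊢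
    exact hcon c hc
  have h3 := card_le_card h2
  have h4 := hN a
  omega

open Classical in
theorem aB3 : AB3 := by
  intro C V K _ _ bl cl g D N hD hN hR
  induction g with
  | zero => exact ⟨1, fun _ => rfl, fun _ _ _ => Nat.zero_le _⟩
  | succ g ih =>
    have hR' : (2 * D + 2) ^ (g + 3) < N :=
      lt_of_le_of_lt (Nat.pow_le_pow_right (by omega) (by omega)) hR
    obtain ⟨σ0, h01, h02⟩ := ih hR'
    let GG : Finset (Equiv.Perm C) :=
      univ.filter (fun σ => (∀ c, cl (σ c) = cl c) ∧ AG bl (amt σ) g)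
    have hGG : ∀ σ, σ ∈ GG ↔ ((∀ c, cl (σ c) = cl c) ∧ AG bl (amt σ) g) := fun σ => by
      simp [GG]
    obtain ⟨σ, hσ, hmin⟩ := exists_min_image GG (fun σ => (WS bl g σ).ncard)
      ⟨σ0, (hGG σ0).2 ⟨h01, h02⟩⟩
    obtain ⟨hσ1, hσ2⟩ := (hGG σ).1 hσ
    refine ⟨σ, hσ1, ?_⟩
    by_contra hAG
    unfold AG at hAG
    push Not at hAG
    obtain ⟨x, t, hch, hlt⟩ := hAG
    have hge := hσ2 x t hch
    have hlen : t.length + 1 = g := by omega
    obtain ⟨c, hc1, hc2⟩ := exists_far hD hN hR' σ (if x.2 then x.1 else σ.symm x.1)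
    set a : C := if x.2 then x.1 else σ.symm x.1 with ha
    have hold : AOld σ a c x := by
      obtain ⟨y, b⟩ := x
      cases b
      · right; left; simp [ha]
      · left; simp [ha]
    have hσ' : σ * Equiv.swap a c ∈ GG :=
      (hGG _).2 ⟨swap_colour hσ1 hc1, ag_switch hσ2 hc2⟩
    have hss : WS bl g (σ * Equiv.swap a c) ⊂ WS bl g σ := by
      refine ⟨?_, ?_⟩
      · rintro l ⟨hl, y, s, rfl, hy⟩
        have h1 := aB1 C V bl σ g a c hσ2 hc2 y s hy (by
          simp only [List.length_cons] at hl; omega)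
        exact ⟨hl, y, s, rfl, h1.1⟩
      · intro hsub
        have hmem : x :: t ∈ WS bl g σ := ⟨by simp only [List.length_cons]; omega, x, t, rfl, hch⟩
        obtain ⟨_, y, s, hys, hy⟩ := hsub hmem
        obtain ⟨rfl, rfl⟩ := List.cons.inj hys
        have h1 := aB1 C V bl σ g a c hσ2 hc2 x t hy (by omega)
        exact h1.2 x List.mem_cons_self hold
    have hlt2 := Set.ncard_lt_ncard hss (ws_finite bl g σ)
    have := hmin _ hσ'
    omega

end Vale.Agent.P201.G.B
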