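import Vale.Agent.P201.G.BB23

/-! P201 / P194, block B in abstract form: assembly `aStmtB : AStmtB`.  helper333. -/

namespace Vale.Agent.P201.G.B

open Finset

theorem aStmtB : AStmtB := by
  classical
  intro C V K _ _ bl cl g D N s hD hcl hN Q hQ0 hQ1 hQs
  have hD' : ∀ [DecidableEq V], ∀ b : V,
      (univ.filter (fun q : C × Bool => bl q = b)).card ≤ D := by
    intro _ b
    have h := hD b
    convert h
  obtain ⟨σ0, hσ0, hσ0'⟩ := aB3 C V K bl cl g D N hD hcl (by omega)
  set R : ℕ := (2 * D + 2) ^ (g + 3) with hR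
  let GG : Finset (Equiv.Perm C) :=
    univ.filter (fun σ => (∀ c, cl (σ c) = cl c) ∧ AG bl (amt σ) g)
  have hGG : ∀ σ, σ ∈ GG ↔ (∀ c, cl (σ c) = cl c) ∧ AG bl (amt σ) g := fun σ => by simp [GG]
  obtain ⟨σ, hσ, hS⟩ := exists_good_perm GG ⟨σ0, (hGG σ0).2 ⟨hσ0, hσ0'⟩⟩ N R s hN (by
    intro σ hσ a
    obtain ⟨hcol, hG⟩ := (hGG σ).1 hσ
    have h1 := aB2' bl g D hD' σ a
    have h2 : (2 * D + 2) ^ (g + 1) ≤ R :=
      Nat.pow_le_pow_right (by omega) (by omega)
    have h3 : (univ.filter (fun c : C => cl c = cl a)) ⊆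
        (univ.filter (fun c => σ * Equiv.swap a c ∈ GG)) ∪
        (univ.filter (fun c : C => ¬ AFar bl σ g a c)) := by
      intro c hc
      rw [mem_filter] at hc
      by_cases hf : AFar bl σ g a c
      · refine mem_union_left _ (mem_filter.2 ⟨mem_univ _, (hGG _).2 ⟨?_, ag_switch hG hf⟩⟩)
        intro d
        rw [Equiv.Perm.coe_mul, Function.comp_apply, hcol]
        rcases eq_or_ne d a with rfl | h3
        · rw [Equiv.swap_apply_left]; exact hc.2
        · rcases eq_or_ne d c with rfl | h4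
          · rw [Equiv.swap_apply_right]; exact hc.2.symm
          · rw [Equiv.swap_apply_of_ne_of_ne h3 h4]
      · exact mem_union_right _ (mem_filter.2 ⟨mem_univ _, hf⟩)
    have h4 := (card_le_card h3).trans (card_union_le _ _)
    have h5 : N ≤ (univ.filter (fun c : C => cl c = cl a)).card := by
      have h := hcl a
      convert h
    calc N ≤ _ := h5
      _ ≤ _ := h4
      _ ≤ _ := Nat.add_le_add_left (h1.trans h2) _) Q hQ0 hQ1 hQs
  refine ⟨σ, ((hGG σ).1 hσ).1, ((hGG σ).1 hσ).2, fun S hSg => ?_⟩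
  have := hS S hSg
  rw [hR] at this
  push_cast at this
  exact this

end Vale.Agent.P201.G.B
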