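import Vale.Agent.P201.G.BB3
import Vale.Agent.P201.G.BB4

/-! P201 / P194, block B abstract: main theorem.  helper585. -/

namespace Vale.Agent.P201.G.B

open Finset

open Classical in
theorem aStmtB : AStmtB := by
  intro C V K _ _ bl cl g D N s hD hN hR Q hQ0 hQ1 hQs
  set R : ℕ := (2 * D + 2) ^ (g + 3) with hRdef
  obtain ⟨σ0, h01, h02⟩ := aB3 C V K bl cl g D N hD hN (by omega)
  let GG : Finset (Equiv.Perm C) :=
    univ.filter (fun σ => (∀ c, cl (σ c) = cl c) ∧ AG bl (amt σ) g)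
  have hGG : ∀ σ, σ ∈ GG ↔ ((∀ c, cl (σ c) = cl c) ∧ AG bl (amt σ) g) := fun σ => by
    simp [GG]
  have H : ∀ σ ∈ GG, ∀ a : C,
      N ≤ (univ.filter (fun c => σ * Equiv.swap a c ∈ GG)).card + R := by
    intro σ hσ a
    obtain ⟨hσ1, hσ2⟩ := (hGG σ).1 hσ
    have h2 := aB2 C V bl g D hD σ a
    have hsub : (univ.filter (fun c : C => cl c = cl a)) ⊆
        (univ.filter (fun c => σ * Equiv.swap a c ∈ GG)) ∪
          (univ.filter (fun c : C => ¬ AFar bl σ g a c)) := by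
      intro c hc
      simp only [mem_filter, mem_univ, true_and, mem_union] at hc ⊢
      by_cases hf : AFar bl σ g a c
      · exact Or.inl ((hGG _).2 ⟨swap_colour hσ1 hc, ag_switch hσ2 hf⟩)
      · exact Or.inr hf
    have h3 := (hN a).trans ((card_le_card hsub).trans (card_union_le _ _))
    exact h3.trans (Nat.add_le_add_left h2 _)
  obtain ⟨σ, hσ, hS⟩ := exists_good_perm GG ⟨σ0, (hGG σ0).2 ⟨h01, h02⟩⟩ N R s hR
    (by intro σ hσ a; convert H σ hσ a) Q hQ0 hQ1 hQs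
  obtain ⟨hσ1, hσ2⟩ := (hGG σ).1 hσ
  refine ⟨σ, hσ1, hσ2, fun S hSg => ?_⟩
  have := hS S hSg
  rw [hRdef] at this
  push_cast at this
  exact this

end Vale.Agent.P201.G.B
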