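import Mathlib

/-!
General block systems for P201 (zero divisors), P194 (direct finiteness) and P186: helper872.
Same definitions as `Vale/Agent/P201/Z/Defs.lean`, for an arbitrary finite port system:
row, block and height are functions of the port (they may depend on the copy).
P201 is the instance of the cells of a pattern.  No colours are needed.
-/

namespace Vale.Agent.P201.G

open Finset

/-- labelled block system; a port is a cell in copy 1 (`true`) or copy 2 (`false`) -/
structure Sys where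
  C : Type
  R : Type
  B : Type
  [fC : Fintype C]
  [fR : Fintype R]
  [fB : Fintype B]
  [dC : DecidableEq C]
  [dR : DecidableEq R]
  [dB : DecidableEq B]
  /-- row of a port -/
  frc : C × Bool → R
  /-- block of a port -/
  fblk : C × Bool → B
  /-- height of a port -/
  fht : C × Bool → ℤ
  inj : ∀ q q' : C × Bool, frc q = frc q' → fblk q = fblk q' → fht q = fht q' → q = q'
  cp : ∀ q q' : C × Bool, frc q = frc q' → q.2 = q'.2

attribute [instance] Sys.fC Sys.fR Sys.fB Sys.dC Sys.dR Sys.dB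

abbrev Port (Ω : Sys) : Type := Ω.C × Bool

variable {Ω : Sys}

/-- row of a port -/
def rc (q : Port Ω) : Ω.R := Ω.frc q

/-- block of a port -/
def blk (q : Port Ω) : Ω.B := Ω.fblk q

/-- height of a port -/
def ht (q : Port Ω) : ℤ := Ω.fht q

theorem port_ext {q q' : Port Ω} (h1 : rc q = rc q') (h2 : blk q = blk q') (h3 : ht q = ht q') :
    q = q' := Ω.inj q q' h1 h2 h3

theorem copy_eq {q q' : Port Ω} (h : rc q = rc q') : q.2 = q'.2 := Ω.cp q q' h

/-- the matching involution on ports: copy-1 cell `c` with copy-2 cell `σ c` -/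
def mt (σ : Equiv.Perm Ω.C) (q : Port Ω) : Port Ω :=
  if q.2 then (σ q.1, false) else (σ.symm q.1, true)

/-- reduced walk of the matching graph, given by its leaving ports -/
def IsWalk (σ : Equiv.Perm Ω.C) (l : List (Port Ω)) : Prop :=
  l.IsChain (fun a b => blk (mt σ a) = blk b ∧ b ≠ mt σ a)

/-- closed cyclically reduced walk -/
def IsCWalk (σ : Equiv.Perm Ω.C) (l : List (Port Ω)) : Prop :=
  IsWalk σ l ∧ ∀ a ∈ l.getLast?, ∀ b ∈ l.head?, blk (mt σ a) = blk b ∧ b ≠ mt σ a

/-- girth at least `g` -/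
def Girth (σ : Equiv.Perm Ω.C) (g : ℕ) : Prop :=
  ∀ l : List (Port Ω), l ≠ [] → IsCWalk σ l → g ≤ l.length

/-! ## Part B: random matching of large girth (change of measure) -/

/-- graph of a permutation as a finset of pairs -/
def gr (σ : Equiv.Perm Ω.C) : Finset (Ω.C × Ω.C) := univ.image (fun c => (c, σ c))

/-- every block has at most `D` ports -/
def Deg (Ω : Sys) (D : ℕ) : Prop :=
  ∀ b : Ω.B, (univ.filter (fun q : Port Ω => blk q = b)).card ≤ D

/-- PART B. `D` bounds the number of ports of a block, `R = (2*D+2)^(g+3)`. -/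
def StmtB : Prop :=
  ∀ (Ω : Sys) (g D m : ℕ), Deg Ω D → (2 * D + 2) ^ (g + 3) + m < Fintype.card Ω.C →
    ∀ Q : Finset (Ω.C × Ω.C) → ℝ, (∀ S, 0 ≤ Q S) → (∑ S, Q S ≤ 1) →
      (∀ S, Q S ≠ 0 → S.card ≤ m) →
      ∃ σ : Equiv.Perm Ω.C, Girth σ g ∧
        ∀ S ⊆ gr σ, Q S * ((Fintype.card Ω.C : ℝ) - (2 * D + 2) ^ (g + 3) - m) ^ S.card ≤ 1

/-! ## Labels of units -/

/-- units: ordered pairs of distinct ports of the same block -/
def units (Ω : Sys) : Finset (Port Ω × Port Ω) :=
  univ.filter (fun x => blk x.1 = blk x.2 ∧ x.1 ≠ x.2)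

abbrev Lb (Ω : Sys) : Type := Ω.R × Ω.R × ℤ

/-- label of a unit -/
def lam (x : Port Ω × Port Ω) : Lb Ω := (rc x.1, rc x.2, ht x.2 - ht x.1)

/-- number of units with a given label -/
def un (Ω : Sys) (l : Lb Ω) : ℕ := ((units Ω).filter (fun x => lam x = l)).card

/-- occurring labels -/
def labs (Ω : Sys) : Finset (Lb Ω) := (units Ω).image lam

/-- hypotheses of the local inequality (`N = card Ω.C`, `rho l = un Ω l / N`) -/
structure Good (Ω : Sys) (T : ℕ) : Prop where
  deg : Deg Ω T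
  nb : Fintype.card Ω.B ≤ T * Fintype.card Ω.C
  un_ge : ∀ l ∈ labs Ω, Fintype.card Ω.C ≤ T * un Ω l
  w : 2 * ∑ l ∈ labs Ω, (un Ω l) ^ 2 ≤ Fintype.card Ω.C ^ 2

/-! ## Partial injections and cycles -/

/-- `k`-th iterate of a partial injection -/
def pit {S : Type} (f : S ≃. S) : ℕ → S → Option S
  | 0, s => some s
  | k + 1, s => (f s).bind (pit f k)

/-- `s` lies on a cycle of `f` -/
def Per {S : Type} (f : S ≃. S) (s : S) : Prop := ∃ k, 0 < k ∧ pit f k s = some s

open Classical in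
/-- forward orbit -/
noncomputable def orb {S : Type} [Fintype S] (f : S ≃. S) (s : S) : Finset S :=
  univ.filter (fun t => ∃ k, pit f k s = some t)

open Classical in
/-- number of cycles -/
noncomputable def cyc {S : Type} [Fintype S] (f : S ≃. S) : ℕ :=
  ((univ.filter (Per f)).image (orb f)).card

open Classical in
noncomputable def domc {S : Type} [Fintype S] (f : S ≃. S) : ℕ :=
  (univ.filter (fun s => (f s).isSome)).card

/-! ## Gluing data: squares with partial injections `X`, `Y`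

`ε a` is the port of the start corner of the (oriented) square `a`, `mt σ (ε a)` the port of its end
corner.  `Y a = some a'`: the end y-side of `a` is glued to the start y-side of `a'`.
`X a = some a'`: the start x-side of `a` is glued to the end x-side of `a'`. -/

structure Glue (σ : Equiv.Perm Ω.C) where
  S : Type
  [fS : Fintype S]
  [dS : DecidableEq S]
  ε : S → Port Ω
  X : S ≃. S
  Y : S ≃. S

attribute [instance] Glue.fS Glue.dS

namespace Glue

variable {σ : Equiv.Perm Ω.C} (G : Glue σ)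

/-- `Y ∘ X` (first `X`, then `Y`) -/
def XY : G.S ≃. G.S := G.X.trans G.Y

/-- sides are glued to sides with the same letter and there is no mirror pair -/
structure Red : Prop where
  y : ∀ a a', G.Y a = some a' → blk (mt σ (G.ε a)) = blk (G.ε a') ∧ G.ε a' ≠ mt σ (G.ε a)
  x : ∀ a a', G.X a = some a' → rc (G.ε a) = rc (mt σ (G.ε a')) ∧ G.ε a ≠ mt σ (G.ε a')

/-- the label increment of one step `a ↦ X a = u ↦ Y u = v`: `ht (mt (ε u)) - ht (ε v)` -/
def inc (a : G.S) : ℤ :=
  match G.X a with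
  | none => 0
  | some u => match G.Y u with
    | none => 0
    | some v => ht (mt σ (G.ε u)) - ht (G.ε v)

/-- all cycles of `XY` except at most one have label sum zero -/
def Lab : Prop := ∃ E : Finset G.S, (∀ a a', a ∈ E → a' ∈ E → orb G.XY a = orb G.XY a') ∧
  ∀ a, Per G.XY a → a ∉ E → ∑ t ∈ orb G.XY a, G.inc t = 0

/-- Euler inequality -/
def Eul : Prop :=
  domc G.X + domc G.Y ≤ Fintype.card G.S + cyc G.X + cyc G.Y + cyc G.XY

end Glue

/-- the local isoperimetric inequality up to area `M`, with weight `Y` of a y-letter -/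
def LocIso (σ : Equiv.Perm Ω.C) (M Y : ℕ) (e1 : ℝ) : Prop :=
  ∀ G : Glue σ, G.Red → G.Lab → G.Eul → Fintype.card G.S ≤ M →
    e1 * (Fintype.card G.S : ℝ) ≤
      ((Fintype.card G.S : ℝ) - domc G.X) + Y * ((Fintype.card G.S : ℝ) - domc G.Y)

/-- PARTS B + C + LA: existence of good matchings. -/
def StmtLoc : Prop :=
  ∀ T : ℕ, ∃ c e1 : ℝ, 0 < c ∧ 0 < e1 ∧ ∀ K Y0 : ℕ, ∃ N0 : ℕ, ∀ Ω : Sys,
    N0 ≤ Fintype.card Ω.C → Good Ω T → ∃ Y : ℕ, Y0 ≤ Y ∧
      ∃ σ : Equiv.Perm Ω.C, ∃ g : ℕ, c * Y ≤ g ∧ Girth σ g ∧ LocIso σ (K * Y) Y e1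

/-! ## The group -/

inductive Let (Ω : Sys)
  | t : Let Ω
  | x : Ω.R → Let Ω
  | y : Ω.B → Let Ω

/-- the word `t^h` as a list of signed letters -/
def tw (Ω : Sys) (h : ℤ) : List (Let Ω × Bool) :=
  List.replicate h.natAbs (Let.t, decide (0 ≤ h))

/-- inverse of a list word -/
def winv {A : Type} (l : List (A × Bool)) : List (A × Bool) := (l.map (fun a => (a.1, !a.2))).reverse

/-- half relator of a port: `x_{row} t^{ht} y_{blk}` -/
def half (q : Port Ω) : List (Let Ω × Bool) :=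
  (Let.x (rc q), true) :: (tw Ω (ht q) ++ [(Let.y (blk q), true)])

/-- the relator of a port (oriented square, read from the o-vertex):
`half q * (half (mt σ q))⁻¹`.  The relator of `mt σ q` is the inverse of that of `q`. -/
def relw (σ : Equiv.Perm Ω.C) (q : Port Ω) : List (Let Ω × Bool) :=
  half q ++ winv (half (mt σ q))

/-- value of a list word in the free group -/
def val {A : Type} (l : List (A × Bool)) : FreeGroup A := FreeGroup.mk l

/-- the set of relators -/
def rels (σ : Equiv.Perm Ω.C) : Set (FreeGroup (Let Ω)) := Set.range (fun q => val (relw σ q))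

abbrev Gp (σ : Equiv.Perm Ω.C) : Type := PresentedGroup (rels σ)

/-- weight of a letter: `t` 0, `x` 1, `y` Y -/
def wtl (Y : ℕ) : Let Ω → ℕ
  | .t => 0
  | .x _ => 1
  | .y _ => Y

def wtw (Y : ℕ) (l : List (Let Ω × Bool)) : ℕ := (l.map (fun a => wtl Y a.1)).sum

/-- chains: `ℤ[Gp]^{cells}`; the square of a port `(c,true)` is `+[g,c]`, of `(σ c,false)` is `-[g,c]`. -/
abbrev Chn (σ : Equiv.Perm Ω.C) : Type := (Gp σ × Ω.C) →₀ ℤ

noncomputable def pch (σ : Equiv.Perm Ω.C) (g : Gp σ) (q : Port Ω) : Chn σ :=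
  if q.2 then Finsupp.single (g, q.1) 1 else Finsupp.single (g, σ.symm q.1) (-1)

/-- `Expr σ k u z`: the element `u` of the free group is a product of `k` conjugates of relators with
chain `z`. -/
inductive Expr (σ : Equiv.Perm Ω.C) : ℕ → FreeGroup (Let Ω) → Chn σ → Prop
  | nil : Expr σ 0 1 0
  | cons (k : ℕ) (u : FreeGroup (Let Ω)) (z : Chn σ) (v : FreeGroup (Let Ω)) (q : Port Ω) :
      Expr σ k u z →
      Expr σ (k + 1) (v * val (relw σ q) * v⁻¹ * u) (pch σ (PresentedGroup.mk (rels σ) v) q + z)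

/-- asphericity -/
def Asph (σ : Equiv.Perm Ω.C) : Prop := ∀ k z, Expr σ k 1 z → z = 0

/-- injectivity on words without y-letters and at most two x-letters (in particular `t` has
infinite order) -/
def Short (σ : Equiv.Perm Ω.C) : Prop :=
  ∀ l : List (Let Ω × Bool), (∀ a ∈ l, ∀ j, a.1 ≠ Let.y j) → wtw 0 l ≤ 2 →
    PresentedGroup.mk (rels σ) (val l) = 1 → val l = 1

/-- linear isoperimetric inequality (for P186); `t` has weight 0 -/
def LinIso (σ : Equiv.Perm Ω.C) (Y : ℕ) : Prop :=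
  ∃ A : ℕ, ∀ l : List (Let Ω × Bool), PresentedGroup.mk (rels σ) (val l) = 1 →
    ∃ k z, k ≤ A * wtw Y l ∧ Expr σ k (val l) z

/-- PARTS D + F: asphericity, injectivity for short words, linear isoperimetric inequality. -/
def StmtGlob : Prop :=
  ∀ T : ℕ, ∀ c e1 : ℝ, 0 < c → 0 < e1 → ∃ K Y0 : ℕ, ∀ (Ω : Sys), Deg Ω T → ∀ Y : ℕ, Y0 ≤ Y →
    ∀ (σ : Equiv.Perm Ω.C) (g : ℕ), c * Y ≤ g → Girth σ g → LocIso σ (K * Y) Y e1 →
      Asph σ ∧ Short σ ∧ LinIso σ Y

/-- good matchings exist for every large good system -/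
theorem exists_good (hL : StmtLoc) (hG : StmtGlob) (T : ℕ) :
    ∃ N0 : ℕ, ∀ Ω : Sys, N0 ≤ Fintype.card Ω.C → Good Ω T →
      ∃ (Y : ℕ) (σ : Equiv.Perm Ω.C), Asph σ ∧ Short σ ∧ LinIso σ Y := by
  obtain ⟨c, e1, hc, he, h⟩ := hL T
  obtain ⟨K, Y0, h2⟩ := hG T c e1 hc he
  obtain ⟨N0, h3⟩ := h K Y0
  refine ⟨N0, fun Ω hs hg => ?_⟩
  obtain ⟨Y, hY, σ, g, hg1, hg2, hl⟩ := h3 Ω hs hg
  exact ⟨Y, σ, h2 Ω hg.deg Y hY σ g hg1 hg2 hl⟩

end Vale.Agent.P201.G
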