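import Vale.Agent.P201.G.Defs
import Vale.Agent.P201.G.BBMain

/-! P201 / P194: StmtB for the general system of `G/Defs.lean`.  helper585. -/

namespace Vale.Agent.P201.G

open Finset

theorem girth_of_ag {Ω : Sys} {σ : Equiv.Perm Ω.C} {g : ℕ}
    (h : B.AG (fun q : Port Ω => blk q) (B.amt σ) g) : Girth σ g := by
  intro l hl hw
  cases l with
  | nil => exact absurd rfl hl
  | cons a t =>
    refine h a t ?_
    obtain ⟨h1, h2⟩ := hw
    rw [← List.cons_append, List.isChain_append]
    refine ⟨h1, List.isChain_singleton _, fun x hx y hy => ?_⟩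
    exact h2 x hx y (by simpa using hy)

theorem stmtB : StmtB := by
  intro Ω g D m hD hN Q h0 h1 hs
  obtain ⟨σ, _, hg, hS⟩ := B.aStmtB Ω.C Ω.B Unit (fun q : Port Ω => blk q) (fun _ => ()) g D
    (Fintype.card Ω.C) m (by intro b; convert hD b) (by intro a; simp) hN Q h0 h1 hs
  refine ⟨σ, girth_of_ag hg, fun S hSg => hS S (fun x hx => ?_)⟩
  have h := hSg hx
  unfold gr at h
  rw [mem_image] at h
  obtain ⟨c, _, hc⟩ := h
  rw [← hc]

end Vale.Agent.P201.G
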